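import Vale.Agent.P084.Gen.Main

open Metric

namespace Vale.Agent.Results.P084.General

/-- Every real normed space has the Mazur–Ulam property. -/
theorem result {X Y : Type*} [NormedAddCommGroup X] [NormedSpace ℝ X]
    [NormedAddCommGroup Y] [NormedSpace ℝ Y]
    (f : sphere (0 : X) 1 ≃ᵢ sphere (0 : Y) 1) :
    ∃ T : X ≃ₗᵢ[ℝ] Y, ∀ z : sphere (0 : X) 1, T (z : X) = (f z : Y) :=
  Vale.Agent.P084.Gen.exists_linear_extension f

end Vale.Agent.Results.P084.General
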